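import Vale.Agent.P273.H213.Fn

/-!
Fast evaluation of a functional on products of linear forms in the three bivectors with indices
`1, 2, 4`: contraction of triangular tables of integers.
-/

noncomputable section
namespace Vale.Agent.P273.H666

open MvPolynomial Finset H213

section gen
variable {A B : Type*} [CommRing A] [CommRing B]

/-- one row of the contraction -/
def z3 (p q r : A) : List A → List A → List A
  | a :: as, b :: b' :: bs => (p * a + q * b + r * b') :: z3 p q r as (b' :: bs)
  | _, _ => []

/-- contraction of a triangular table -/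
def con (p q r : A) : List (List A) → List (List A)
  | x :: y :: l => z3 p q r x y :: con p q r (y :: l)
  | _ => []

/-- a table with rows of lengths `k + 1, .., k + n + 1` -/
def tabk (k n : ℕ) (f : ℕ → ℕ → A) : List (List A) :=
  (List.range (n + 1)).map fun i => (List.range (i + k + 1)).map (f i)

/-- the triangular table of size `n` of a function -/
def tab (n : ℕ) (f : ℕ → ℕ → A) : List (List A) :=
  (List.range (n + 1)).map fun i => (List.range (i + 1)).map (f i)

/-- repeated contraction -/
def conl : List (A × A × A) → List (List A) → List (List A)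
  | [], T => T
  | L :: Ls, T => conl Ls (con L.1 L.2.1 L.2.2 T)

lemma z3_range (p q r : A) (n : ℕ) (f g : ℕ → A) :
    z3 p q r ((List.range n).map f) ((List.range (n + 1)).map g) =
      (List.range n).map fun j => p * f j + q * g j + r * g (j + 1) := by
  induction n generalizing f g with
  | zero => simp [z3]
  | succ n ih =>
    have e1 : (List.range (n + 1)).map f = f 0 :: (List.range n).map (fun j => f (j + 1)) := by
      rw [List.range_succ_eq_map, List.map_cons, List.map_map]; rfl
    have e2 : (List.range (n + 1 + 1)).map g =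
        g 0 :: (List.range (n + 1)).map (fun j => g (j + 1)) := by
      rw [List.range_succ_eq_map, List.map_cons, List.map_map]; rfl
    have e3 : (List.range (n + 1)).map (fun j => g (j + 1)) =
        g 1 :: (List.range n).map (fun j => g (j + 1 + 1)) := by
      rw [List.range_succ_eq_map, List.map_cons, List.map_map]; rfl
    have e4 : (List.range (n + 1)).map (fun j => p * f j + q * g j + r * g (j + 1)) =
        (p * f 0 + q * g 0 + r * g 1) ::
          (List.range n).map (fun j => p * f (j + 1) + q * g (j + 1) + r * g (j + 1 + 1)) := by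
      rw [List.range_succ_eq_map, List.map_cons, List.map_map]; rfl
    have := ih (fun j => f (j + 1)) (fun j => g (j + 1))
    rw [e1, e2, e4, ← this, e3]
    rfl

omit [CommRing A] in
lemma tabk_succ (k n : ℕ) (f : ℕ → ℕ → A) :
    tabk k (n + 1) f = (List.range (k + 1)).map (f 0) :: tabk (k + 1) n (fun i => f (i + 1)) := by
  unfold tabk
  rw [List.range_succ_eq_map, List.map_cons, List.map_map, zero_add]
  congr 1
  refine List.map_congr_left fun i _ => ?_
  simp only [Function.comp_apply, Nat.succ_eq_add_one]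
  rw [show i + 1 + k + 1 = i + (k + 1) + 1 by omega]

lemma con_tabk (p q r : A) (k n : ℕ) (f : ℕ → ℕ → A) :
    con p q r (tabk k (n + 1) f) =
      tabk k n fun i j => p * f i j + q * f (i + 1) j + r * f (i + 1) (j + 1) := by
  induction n generalizing k f with
  | zero =>
    rw [tabk_succ]
    simp only [tabk, zero_add, List.range_one, List.map_cons, List.map_nil]
    simp only [con]
    rw [z3_range]
  | succ n ih =>
    have h := ih (k + 1) (fun i => f (i + 1))
    rw [tabk_succ k (n + 1), tabk_succ k n (fun i j => p * f i j + _ + _), ← h,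
      tabk_succ (k + 1) n (fun i => f (i + 1))]
    simp only [con]
    rw [z3_range]

omit [CommRing A] in
lemma tab_eq (n : ℕ) (f : ℕ → ℕ → A) : tab n f = tabk 0 n f := rfl

theorem con_tab (p q r : A) (n : ℕ) (f : ℕ → ℕ → A) :
    con p q r (tab (n + 1) f) =
      tab n fun i j => p * f i j + q * f (i + 1) j + r * f (i + 1) (j + 1) := con_tabk p q r 0 n f

omit [CommRing A] in
lemma tab_congr {n : ℕ} {f g : ℕ → ℕ → A} (h : ∀ i j, j ≤ i → i ≤ n → f i j = g i j) :
    tab n f = tab n g := by
  unfold tab
  refine List.map_congr_left fun i hi => ?_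
  refine List.map_congr_left fun j hj => ?_
  rw [List.mem_range] at hi hj
  exact h i j (by omega) (by omega)

/-- the table of the images -/
abbrev mp (φ : A → B) (T : List (List A)) : List (List B) := T.map fun x => x.map φ

lemma z3_map (φ : A →+* B) (p q r : A) (x y : List A) :
    z3 (φ p) (φ q) (φ r) (x.map φ) (y.map φ) = (z3 p q r x y).map φ := by
  induction x generalizing y with
  | nil => simp [z3]
  | cons a as ih =>
    match y with
    | [] => simp [z3]
    | [b] => simp [z3]
    | b :: b' :: bs =>
      have := ih (b' :: bs)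
      simp only [List.map_cons] at this ⊢
      simp only [z3, List.map_cons, map_add, map_mul, this]

lemma con_map (φ : A →+* B) (p q r : A) (T : List (List A)) :
    con (φ p) (φ q) (φ r) (mp φ T) = mp φ (con p q r T) := by
  induction T with
  | nil => simp [con]
  | cons x l ih =>
    match l with
    | [] => simp [con]
    | y :: l =>
      simp only [mp, List.map_cons] at ih ⊢
      simp only [con, List.map_cons, z3_map, ih]

lemma conl_map (φ : A →+* B) (Ls : List (A × A × A)) (T : List (List A)) :
    conl (Ls.map fun L => (φ L.1, φ L.2.1, φ L.2.2)) (mp φ T) = mp φ (conl Ls T) := by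
  induction Ls generalizing T with
  | nil => rfl
  | cons L Ls ih =>
    simp only [List.map_cons, conl]
    rw [con_map, ih]

end gen

/-- the linear form -/
def lf (L : ℝ × ℝ × ℝ) : RR := C L.1 * X 1 + C L.2.1 * X 2 + C L.2.2 * X 4

/-- the values of a functional -/
def tl (n : ℕ) (l : VV) (P : RR) (i j : ℕ) : ℝ := l (P * (X 1 ^ (n - i) * X 2 ^ (i - j) * X 4 ^ j))

theorem con_tl (n : ℕ) (l : VV) (P : RR) (L : ℝ × ℝ × ℝ) :
    con L.1 L.2.1 L.2.2 (tab (n + 1) (tl (n + 1) l P)) = tab n (tl n l (P * lf L)) := by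
  rw [con_tab]
  refine tab_congr fun i j hj hi => ?_
  have e1 : n + 1 - i = n - i + 1 := by omega
  have e2 : n + 1 - (i + 1) = n - i := by omega
  have e3 : i + 1 - j = i - j + 1 := by omega
  have e4 : i + 1 - (j + 1) = i - j := by omega
  unfold tl
  rw [e1, e2, e3, e4]
  have e5 : P * lf L * (X 1 ^ (n - i) * X 2 ^ (i - j) * X 4 ^ j) =
      L.1 • (P * (X 1 ^ (n - i + 1) * X 2 ^ (i - j) * X 4 ^ j)) +
      L.2.1 • (P * (X 1 ^ (n - i) * X 2 ^ (i - j + 1) * X 4 ^ j)) +
      L.2.2 • (P * (X 1 ^ (n - i) * X 2 ^ (i - j) * X 4 ^ (j + 1))) := by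
    simp only [lf, smul_eq_C_mul]
    ring
  rw [e5, map_add, map_add, map_smul, map_smul, map_smul]
  simp only [smul_eq_mul]

theorem conl_tl (l : VV) (Ls : List (ℝ × ℝ × ℝ)) (P : RR) :
    conl Ls (tab Ls.length (tl Ls.length l P)) = [[l (P * (Ls.map lf).prod)]] := by
  induction Ls generalizing P with
  | nil => simp [conl, tab, tl]
  | cons L Ls ih =>
    simp only [conl, List.length_cons]
    rw [con_tl, ih, List.map_cons, List.prod_cons, mul_assoc]

/-- an integer triple as a real one -/
def rz (L : ℤ × ℤ × ℤ) : ℝ × ℝ × ℝ := ((L.1 : ℝ), (L.2.1 : ℝ), (L.2.2 : ℝ))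

/-- the first entry of a table -/
def hd (T : List (List ℤ)) : ℤ := (T.headD []).headD 0

/-- **fast evaluation**: if `T` is the table of the functional, its value on a product of linear
forms is the entry left after the contractions -/
theorem eval_list (l : VV) (P : RR) (T : List (List ℤ)) (Ls : List (ℤ × ℤ × ℤ))
    (hT : tab Ls.length (tl Ls.length l P) = mp (Int.castRingHom ℝ) T) :
    l (P * (Ls.map fun L => lf (rz L)).prod) = ((hd (conl Ls T) : ℤ) : ℝ) := by
  have h := conl_tl l (Ls.map rz) P
  rw [List.length_map, hT] at h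
  have h2 := conl_map (Int.castRingHom ℝ) Ls T
  have h3 : (Ls.map rz) = Ls.map fun L =>
      (Int.castRingHom ℝ L.1, Int.castRingHom ℝ L.2.1, Int.castRingHom ℝ L.2.2) := rfl
  rw [← h3, h, List.map_map] at h2
  cases hc : conl Ls T with
  | nil => rw [hc] at h2; simp [mp] at h2
  | cons x xs =>
    rw [hc] at h2
    cases x with
    | nil => simp [mp] at h2
    | cons y ys =>
      simp only [mp, List.map_cons, List.cons.injEq] at h2
      have := h2.1.1
      rw [hd, List.headD_cons, List.headD_cons]
      exact this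

/-- powers of three forms -/
theorem eval_pow (l : VV) (P : RR) (T : List (List ℤ)) (A B D : ℤ × ℤ × ℤ) (a b c : ℕ)
    (hT : tab (a + (b + c)) (tl (a + (b + c)) l P) = mp (Int.castRingHom ℝ) T) :
    l (P * (lf (rz A) ^ a * (lf (rz B) ^ b * lf (rz D) ^ c))) =
      ((hd (conl (List.replicate a A ++ (List.replicate b B ++ List.replicate c D)) T) : ℤ) :
        ℝ) := by
  have h := eval_list l P T (List.replicate a A ++ (List.replicate b B ++ List.replicate c D))
    (by simpa using hT)
  rw [← h]
  simp [List.map_append, List.prod_append, List.map_replicate, List.prod_replicate]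

/-! ### functionals given by integer values -/

/-- the part of the values that is used for the annuli -/
def tA (v : (Fin 5 → ℕ) → ℤ) : List (List ℤ) := tab 7 fun i j => v ![0, 7 - i, i - j, 0, j]

/-- the part of the values that is used for the tori -/
def tT (v : (Fin 5 → ℕ) → ℤ) : List (List ℤ) := tab 6 fun i j => v ![1, 6 - i, i - j, 0, j]

/-- the functional with integer values -/
def fz (v : (Fin 5 → ℕ) → ℤ) : VV := fn fun m => (v m : ℝ)

lemma mp_tab (n : ℕ) (f : ℕ → ℕ → ℤ) :
    mp (Int.castRingHom ℝ) (tab n f) = tab n fun i j => (f i j : ℝ) := by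
  simp only [mp, tab, List.map_map]
  refine List.map_congr_left fun i _ => ?_
  simp

lemma fn_mono (v : (Fin 5 → ℕ) → ℝ) (m : Fin 5 → ℕ) (hm : ∑ l, m l = 7) :
    fn v (∏ l, (X l : RR) ^ m l) = v m := by
  rw [prod_mono, fn_monomial, if_pos]
  · rfl
  · rw [Finsupp.degree_eq_sum, ← hm]; rfl

lemma tabA (v : (Fin 5 → ℕ) → ℤ) : tab 7 (tl 7 (fz v) 1) = mp (Int.castRingHom ℝ) (tA v) := by
  rw [tA, mp_tab]
  refine tab_congr fun i j hj hi => ?_
  have h := fn_mono (fun m => (v m : ℝ)) ![0, 7 - i, i - j, 0, j] (by
    simp [Fin.sum_univ_five]; omega)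
  rw [← h]
  simp [tl, fz, Fin.prod_univ_five]

lemma tabT (v : (Fin 5 → ℕ) → ℤ) :
    tab 6 (tl 6 (fz v) (X 0)) = mp (Int.castRingHom ℝ) (tT v) := by
  rw [tT, mp_tab]
  refine tab_congr fun i j hj hi => ?_
  have h := fn_mono (fun m => (v m : ℝ)) ![1, 6 - i, i - j, 0, j] (by
    simp [Fin.sum_univ_five]; omega)
  rw [← h]
  simp only [tl, fz, Fin.prod_univ_five]
  congr 1
  simp
  ring

/-- the contracted number -/
def nm (A B D : ℤ × ℤ × ℤ) (a b c : ℕ) (T : List (List ℤ)) : ℤ :=
  hd (conl (List.replicate a A ++ (List.replicate b B ++ List.replicate c D)) T)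

/-- **annuli**: values on products of seven linear forms in `X 1, X 2, X 4` -/
theorem fz_ann (v : (Fin 5 → ℕ) → ℤ) (A B D : ℤ × ℤ × ℤ) {a b c : ℕ} (h : a + b + c = 7) :
    fz v (lf (rz A) ^ a * lf (rz B) ^ b * lf (rz D) ^ c) = (nm A B D a b c (tA v) : ℝ) := by
  have e : a + (b + c) = 7 := by omega
  have := eval_pow (fz v) 1 (tA v) A B D a b c (by rw [e]; exact tabA v)
  rw [one_mul, ← mul_assoc] at this
  exact this

/-- **tori**: values on `X 0` times a product of six linear forms in `X 1, X 2, X 4` -/
theorem fz_tor (v : (Fin 5 → ℕ) → ℤ) (A B D : ℤ × ℤ × ℤ) {a b c : ℕ} (h : a + b + c = 6) :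
    fz v (X 0 * (lf (rz A) ^ a * lf (rz B) ^ b * lf (rz D) ^ c)) = (nm A B D a b c (tT v) : ℝ) := by
  have e : a + (b + c) = 6 := by omega
  have := eval_pow (fz v) (X 0) (tT v) A B D a b c (by rw [e]; exact tabT v)
  rw [← mul_assoc (lf (rz A) ^ a)] at this
  exact this

/-- half of an integer form -/
def hf (A : ℤ × ℤ × ℤ) : RR := (1 / 2 : ℝ) • lf (rz A)

theorem fz_ann_half (v : (Fin 5 → ℕ) → ℤ) (A B D : ℤ × ℤ × ℤ) {a b c : ℕ} (h : a + b + c = 7) :
    fz v (hf A ^ a * hf B ^ b * hf D ^ c) = (nm A B D a b c (tA v) : ℝ) / 128 := by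
  rw [← fz_ann v A B D h]
  have e : hf A ^ a * hf B ^ b * hf D ^ c =
      (1 / 128 : ℝ) • (lf (rz A) ^ a * lf (rz B) ^ b * lf (rz D) ^ c) := by
    simp only [hf, smul_pow, smul_mul_assoc, mul_smul_comm, smul_smul]
    congr 1
    rw [← pow_add, ← pow_add, show c + (b + a) = 7 by omega]
    norm_num
  rw [e, map_smul, smul_eq_mul]
  ring

end Vale.Agent.P273.H666
end
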