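import Vale.Agent.P273.H666.Ctr
import Vale.Agent.P273.H25.Coef

/-!
The torus and annulus coefficients of a functional with integer values as computable rational
numbers.
-/

noncomputable section
namespace Vale.Agent.P273.H666

open MvPolynomial Finset H213

/-- twice the forms `A` -/
def nA : Fin 3 → ℤ × ℤ × ℤ := ![(-1, 0, 2), (1, -1, 0), (0, 1, -2)]

/-- twice the forms `B1` -/
def nD : Fin 3 → ℤ × ℤ × ℤ := ![(0, 2, -1), (1, 0, 1), (-2, 0, 1)]

/-- twice the forms `B0` -/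
def nB : Fin 3 → ℤ × ℤ × ℤ := ![(0, 0, -1), (-1, 0, 1), (0, 0, 1)]

/-- the first form of the torus -/
def nG : ℤ × ℤ × ℤ := (-1, 0, 2)

/-- the second form of the torus -/
def nH : ℤ × ℤ × ℤ := (0, 1, -2)

lemma lf25 (a b c : ℝ) : H25.lf ![0, a, b, 0, c] = lf (a, b, c) := by
  rw [H25.lf_apply, Fin.sum_univ_five]
  simp [lf]

lemma hf_eq (A : ℤ × ℤ × ℤ) : hf A = lf ((A.1 : ℝ) / 2, (A.2.1 : ℝ) / 2, (A.2.2 : ℝ) / 2) := by
  simp only [hf, lf, rz, smul_add, smul_eq_C_mul, ← mul_assoc, ← map_mul]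
  congr 1
  · congr 1 <;> (congr 2; ring)
  · congr 2; ring

lemma fA_eq (i : Fin 3) : H25.fA i = hf (nA i) := by
  rw [hf_eq]
  fin_cases i <;> simp only [H25.fA, nA, Fin.zero_eta, Fin.mk_one, Fin.reduceFinMk,
    Matrix.cons_val, lf25] <;> norm_num

lemma fD_eq (i : Fin 3) : H25.fD i = hf (nD i) := by
  rw [hf_eq]
  fin_cases i <;> simp only [H25.fD, nD, Fin.zero_eta, Fin.mk_one, Fin.reduceFinMk,
    Matrix.cons_val, lf25] <;> norm_num

lemma fB_eq (i : Fin 3) : H25.fB i = hf (nB i) := by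
  rw [hf_eq]
  fin_cases i <;> simp only [H25.fB, nB, Fin.zero_eta, Fin.mk_one, Fin.reduceFinMk,
    Matrix.cons_val, lf25] <;> norm_num

lemma gA_eq : H25.gA = lf (rz nG) := by
  rw [H25.gA, lf25]; simp [rz, nG]

lemma gB_eq : H25.gB = lf (rz nH) := by
  rw [H25.gB, lf25]; simp [rz, nH]

/-- the annulus, from the numbers `N a s` = 128 times the value at `A ^ a * B1 ^ s * B0 ^ (7-a-s)` -/
def annR (i : Fin 3) (N : ℕ → ℕ → ℤ) (n : Fin 3 → ℕ) : ℚ :=
  (∑ x ∈ range (n (H25.kc i) + 1), ∑ s ∈ range (n (H25.kc i) - x + n (H25.kb i) + 1),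
    ((-1) ^ n (H25.kc i) * ((n (H25.kc i)).choose x : ℚ) *
      ((n (H25.kc i) - x + n (H25.kb i)).choose s : ℚ) * ((N (n i + x + 1) s : ℚ) / 128)) *
      H25.bt (n i + x) s) / ((n 0).factorial * (n 1).factorial * (n 2).factorial : ℕ)

/-- the torus, from the numbers `M a` = the value at `X 0 * gA ^ a * gB ^ (6-a)` -/
def torR (sg : ℤ) (M : ℕ → ℤ) (n : Fin 3 → ℕ) : ℚ :=
  sg * (1 / 9) * (1 / 3) ^ (n 0 + n 1 + n 2) * (∑ x ∈ range (n 1 + 1),
    (-1) ^ n 1 * ((n 1).choose x : ℚ) * (M (n 0 + x) : ℚ)) /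
      ((n 0).factorial * (n 1).factorial * (n 2).factorial : ℕ)

lemma fac_eq (n : Fin 3 → ℕ) :
    H25.fac n = (((n 0).factorial * (n 1).factorial * (n 2).factorial : ℕ) : ℝ) := by
  rw [H25.fac, Fin.prod_univ_three]
  push_cast; rfl

lemma sum_k (i : Fin 3) (n : Fin 3 → ℕ) (hn : n 0 + n 1 + n 2 = 6) :
    n i + n (H25.kc i) + n (H25.kb i) = 6 := by
  fin_cases i <;> simp [H25.kb, H25.kc] <;> omega

/-- **the annulus coefficient of a functional with integer values** -/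
theorem annC_fz (i : Fin 3) (v : (Fin 5 → ℕ) → ℤ) (n : Fin 3 → ℕ) (hn : n 0 + n 1 + n 2 = 6)
    (N : ℕ → ℕ → ℤ)
    (hN : ∀ a < 8, ∀ s < 8, 1 ≤ a → a + s ≤ 7 →
      nm (nA i) (nD i) (nB i) a s (7 - a - s) (tA v) = N a s) :
    H25.annC i (fz v) n = (annR i N n : ℝ) := by
  have hk := sum_k i n hn
  rw [H25.annC_eq, fac_eq, annR]
  push_cast
  congr 1
  refine Finset.sum_congr rfl fun x hx => ?_
  refine Finset.sum_congr rfl fun s hs => ?_
  rw [Finset.mem_range] at hx hs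
  rw [fA_eq, fD_eq, fB_eq]
  have e : n (H25.kc i) - x + n (H25.kb i) - s = 7 - (n i + x + 1) - s := by omega
  rw [e, fz_ann_half v _ _ _ (by omega), hN _ (by omega) _ (by omega) (by omega) (by omega)]

/-- **the torus coefficient of a functional with integer values** -/
theorem torC_fz {i j : Fin 3} (hij : i < j) (w : (Fin 5 → ℕ) → ℤ) (n : Fin 3 → ℕ)
    (hn : n 0 + n 1 + n 2 = 6) (M : ℕ → ℤ)
    (hM : ∀ a < 7, nm nG nH (0, 0, 0) a (6 - a) 0 (tT w) = M a) :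
    H25.torC i j (fz w) n = (torR (if j = i + 1 then -1 else 1) M n : ℝ) := by
  rw [H25.torC_eq hij, fac_eq, torR, H25.tsg]
  push_cast
  congr 1
  congr 1
  · split_ifs <;> simp
  refine Finset.sum_congr rfl fun x hx => ?_
  rw [Finset.mem_range] at hx
  congr 1
  rw [← hM (n 0 + x) (by omega), gA_eq, gB_eq, ← fz_tor w nG nH (0, 0, 0) (by omega), pow_zero,
    mul_one, ← mul_assoc]
  rw [show 6 - (n 0 + x) = n 1 - x + n 2 by omega]

end Vale.Agent.P273.H666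
end
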